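import Vale.Agent.P173.Basic

/-!
P173 Example: barycentric subdivision of the complex with 1-skeleton `K₅` and six
pentagons (spine of the Poincare sphere).
-/

namespace Vale.Agent.P173

open scoped Quaternion

namespace Ex

def tbL : List (List ℕ) :=
  [[0, 1, 1, 1, 1, 1, 1, 1, 1, 1, 1, 0, 0, 0, 0, 0, 0, 0, 0, 0, 0], [1, 0, 0, 0, 0, 0, 2, 3, 0,
  0, 0, 1, 1, 1, 1, 1, 1, 1, 0, 0, 0], [1, 0, 0, 0, 0, 0, 4, 0, 5, 0, 0, 0, 0, 6, 7, 8, 9, 10,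
  1, 1, 0], [1, 0, 0, 0, 0, 0, 0, 0, 11, 12, 0, 13, 0, 14, 15, 16, 17, 18, 0, 0, 1], [1, 0, 0,
  0, 0, 0, 0, 0, 0, 19, 20, 0, 21, 22, 23, 24, 25, 26, 27, 0, 0], [1, 0, 0, 0, 0, 0, 0, 28, 0,
  0, 29, 0, 0, 30, 31, 32, 33, 34, 0, 35, 36], [1, 2, 4, 0, 0, 0, 0, 0, 0, 0, 0, 0, 0, 37, 38,
  0, 0, 0, 0, 0, 0], [1, 3, 0, 0, 0, 28, 0, 0, 0, 0, 0, 0, 0, 0, 0, 0, 39, 40, 0, 0, 0], [1, 0,
  5, 11, 0, 0, 0, 0, 0, 0, 0, 0, 0, 0, 0, 41, 0, 42, 0, 0, 0], [1, 0, 0, 12, 19, 0, 0, 0, 0, 0,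
  0, 0, 0, 0, 43, 0, 44, 0, 0, 0, 0], [1, 0, 0, 0, 20, 29, 0, 0, 0, 0, 0, 0, 0, 45, 0, 46, 0, 0,
  0, 0, 0], [0, 1, 0, 13, 0, 0, 0, 0, 0, 0, 0, 0, 0, 47, 0, 48, 49, 0, 0, 0, 0], [0, 1, 0, 0,
  21, 0, 0, 0, 0, 0, 0, 0, 0, 0, 50, 51, 0, 52, 0, 0, 0], [0, 1, 6, 14, 22, 30, 37, 0, 0, 0, 45,
  47, 0, 0, 0, 0, 0, 0, 53, 0, 54], [0, 1, 7, 15, 23, 31, 38, 0, 0, 43, 0, 0, 50, 0, 0, 0, 0, 0,
  0, 55, 56], [0, 1, 8, 16, 24, 32, 0, 0, 41, 0, 46, 48, 51, 0, 0, 0, 0, 0, 0, 57, 0], [0, 1, 9,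
  17, 25, 33, 0, 39, 0, 44, 0, 49, 0, 0, 0, 0, 0, 0, 58, 59, 0], [0, 1, 10, 18, 26, 34, 0, 40,
  42, 0, 0, 0, 52, 0, 0, 0, 0, 0, 60, 0, 61], [0, 0, 1, 0, 27, 0, 0, 0, 0, 0, 0, 0, 0, 53, 0, 0,
  58, 60, 0, 0, 0], [0, 0, 1, 0, 0, 35, 0, 0, 0, 0, 0, 0, 0, 0, 55, 57, 59, 0, 0, 0, 0], [0, 0,
  0, 1, 0, 36, 0, 0, 0, 0, 0, 0, 0, 54, 56, 0, 0, 61, 0, 0, 0]]

def trL : List (List (Fin 21)) :=
  [[0, 1, 6], [0, 1, 7], [0, 2, 6], [0, 2, 8], [0, 3, 8], [0, 3, 9], [0, 4, 9], [0, 4, 10], [0,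
  5, 7], [0, 5, 10], [1, 6, 13], [1, 6, 14], [1, 7, 16], [1, 7, 17], [1, 11, 13], [1, 11, 15],
  [1, 11, 16], [1, 12, 14], [1, 12, 15], [1, 12, 17], [2, 6, 13], [2, 6, 14], [2, 8, 15], [2, 8,
  17], [2, 13, 18], [2, 14, 19], [2, 15, 19], [2, 16, 18], [2, 16, 19], [2, 17, 18], [3, 8, 15],
  [3, 8, 17], [3, 9, 14], [3, 9, 16], [3, 11, 13], [3, 11, 15], [3, 11, 16], [3, 13, 20], [3,
  14, 20], [3, 17, 20], [4, 9, 14], [4, 9, 16], [4, 10, 13], [4, 10, 15], [4, 12, 14], [4, 12,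
  15], [4, 12, 17], [4, 13, 18], [4, 16, 18], [4, 17, 18], [5, 7, 16], [5, 7, 17], [5, 10, 13],
  [5, 10, 15], [5, 13, 20], [5, 14, 19], [5, 14, 20], [5, 15, 19], [5, 16, 19], [5, 17, 20]]

def parL : List (Fin 21) :=
  [0, 0, 0, 0, 0, 0, 0, 0, 0, 0, 0, 1, 1, 1, 1, 1, 1, 1, 2, 2, 3]

def ntL : List (List (Fin 21)) :=
  [[1, 6], [1, 7], [2, 6], [2, 8], [2, 13], [2, 14], [2, 15], [2, 16], [2, 17], [3, 8], [3, 9],
  [3, 11], [3, 13], [3, 14], [3, 15], [3, 16], [3, 17], [4, 9], [4, 10], [4, 12], [4, 13], [4,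
  14], [4, 15], [4, 16], [4, 17], [4, 18], [5, 7], [5, 10], [5, 13], [5, 14], [5, 15], [5, 16],
  [5, 17], [5, 19], [5, 20], [6, 13], [6, 14], [7, 16], [7, 17], [8, 15], [8, 17], [9, 14], [9,
  16], [10, 13], [10, 15], [11, 13], [11, 15], [11, 16], [12, 14], [12, 15], [12, 17], [13, 18],
  [13, 20], [14, 19], [14, 20], [15, 19], [16, 18], [16, 19], [17, 18], [17, 20]]

def nL : List ℕ :=
  [1, 3, 9, 27, 6973627862, 20920883564, 24775954599491172343262638640,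
  25273407400972341547408209884, 11011699073756643780864851016, 81, 243,
  24775954599390903299156076587, 24775954599424257662560192694, 10707581688252777567998061738,
  24775954599490966389368424908, 24775954599240808663772984024, 11011699073757879221800597548,
  729, 2187, 10707582697340863690170282687, 4464615052599297640346996480,
  10707581712569961506300769480, 10707588605966276792225100462, 24775954562756694165469087790,
  10707600423217102996334736012, 4464668230228015841270011023, 6561, 19683,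
  4458153751872092704023369878, 31683299691458637599873172990, 10746355425558604226555729982,
  1435795975383705178078506, 4307387926151115534222384, 31508850480449515705303900063,
  36155192465528515230439484277, 59051, 177149, 531447, 1594329, 24775954599491172280500519476,
  11011699073756643875008029816, 10707581688254630588186913336, 24775954599229690542639873464,
  4464614833761319377322282436, 10707588934223244186762175902, 4782969, 14348907, 43046721,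
  129140163, 387420489, 1162261467, 285916438999, 33848581979013607712971748413, 857749316959,
  5712500592902329864791162114, 33848581978597092526010293111, 36219697075683505771997725225,
  36219697075683452392815330316, 7890112890071584829919311952, 7890112894124895105375659451]

def qL : List (List ℤ) :=
  [[4, 0, 0, 0, 0, 0, 0, 0], [4, 0, 0, 0, 0, 0, 0, 0], [4, 0, 0, 0, 0, 0, 0, 0], [4, 0, 0, 0, 0,
  0, 0, 0], [4, 0, 0, 0, 0, 0, 0, 0], [4, 0, 0, 0, 0, 0, 0, 0], [1, 1, 2, 0, -1, 1, 0, 0], [1,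
  1, -1, 1, 0, 0, 2, 0], [1, 1, 2, 0, 1, -1, 0, 0], [4, 0, 0, 0, 0, 0, 0, 0], [4, 0, 0, 0, 0, 0,
  0, 0], [1, 1, 2, 0, -1, 1, 0, 0], [1, 1, 2, 0, -1, 1, 0, 0], [1, 1, -1, 1, 0, 0, -2, 0], [1,
  1, 2, 0, -1, 1, 0, 0], [1, 1, 2, 0, -1, 1, 0, 0], [1, 1, 2, 0, 1, -1, 0, 0], [4, 0, 0, 0, 0,
  0, 0, 0], [4, 0, 0, 0, 0, 0, 0, 0], [1, 1, -1, 1, 0, 0, -2, 0], [1, 1, 0, 0, 2, 0, 1, -1], [1,
  1, -1, 1, 0, 0, -2, 0], [1, 1, -1, 1, 0, 0, -2, 0], [1, 1, 2, 0, -1, 1, 0, 0], [1, 1, -1, 1,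
  0, 0, -2, 0], [1, 1, 0, 0, 2, 0, 1, -1], [4, 0, 0, 0, 0, 0, 0, 0], [4, 0, 0, 0, 0, 0, 0, 0],
  [1, 1, 0, 0, 2, 0, 1, -1], [1, 1, 1, -1, 0, 0, -2, 0], [1, 1, -1, 1, 0, 0, -2, 0], [4, 0, 0,
  0, 0, 0, 0, 0], [4, 0, 0, 0, 0, 0, 0, 0], [1, 1, 1, -1, 0, 0, -2, 0], [1, 1, -2, 0, -1, 1, 0,
  0], [4, 0, 0, 0, 0, 0, 0, 0], [4, 0, 0, 0, 0, 0, 0, 0], [4, 0, 0, 0, 0, 0, 0, 0], [4, 0, 0, 0,
  0, 0, 0, 0], [1, 1, 2, 0, -1, 1, 0, 0], [1, 1, 2, 0, 1, -1, 0, 0], [1, 1, -1, 1, 0, 0, -2, 0],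
  [1, 1, 2, 0, -1, 1, 0, 0], [1, 1, 0, 0, 2, 0, 1, -1], [1, 1, -1, 1, 0, 0, -2, 0], [4, 0, 0, 0,
  0, 0, 0, 0], [4, 0, 0, 0, 0, 0, 0, 0], [4, 0, 0, 0, 0, 0, 0, 0], [4, 0, 0, 0, 0, 0, 0, 0], [4,
  0, 0, 0, 0, 0, 0, 0], [4, 0, 0, 0, 0, 0, 0, 0], [4, 0, 0, 0, 0, 0, 0, 0], [1, 1, -2, 0, 1, -1,
  0, 0], [4, 0, 0, 0, 0, 0, 0, 0], [1, 1, 1, -1, 0, 0, 2, 0], [1, 1, -2, 0, 1, -1, 0, 0], [1, 1,
  1, -1, 0, 0, -2, 0], [1, 1, 1, -1, 0, 0, -2, 0], [1, 1, -2, 0, -1, 1, 0, 0], [1, 1, -2, 0, -1,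
  1, 0, 0]]

def tb (a b : Fin 21) : ℕ := (tbL.getD a.val []).getD b.val 0

def dig (d : ℕ) : ℤ := if d = 2 then -1 else d

def tr (k : ℕ) (σ : Fin 60) : Fin 21 := (trL.getD σ.val []).getD k 0

def idx (a b : Fin 21) : Option (Fin 60) :=
  if a < b ∧ 2 ≤ tb a b then some (Fin.ofNat 60 (tb a b - 2)) else none

def gr : SimpleGraph (Fin 21) where
  Adj a b := tb a b ≠ 0
  symm := ⟨by decide +kernel⟩
  loopless := ⟨by decide +kernel⟩

instance : DecidableRel gr.Adj := fun a b => inferInstanceAs (Decidable (tb a b ≠ 0))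

def mkq (l : List ℤ) : ℍ[ℤ√5] :=
  ⟨⟨l.getD 0 0, l.getD 1 0⟩, ⟨l.getD 2 0, l.getD 3 0⟩, ⟨l.getD 4 0, l.getD 5 0⟩,
    ⟨l.getD 6 0, l.getD 7 0⟩⟩

def qq (o : Option (Fin 60)) : ℍ[ℤ√5] :=
  o.elim (mkq [4, 0, 0, 0, 0, 0, 0, 0]) fun σ => mkq (qL.getD σ.val [])

/-- the relation `p * q = 4 * r` in coordinates -/
def Rel4 (p q r : ℍ[ℤ√5]) : Prop :=
  p.re * q.re - p.imI * q.imI - p.imJ * q.imJ - p.imK * q.imK = 4 * r.re ∧
  p.re * q.imI + p.imI * q.re + p.imJ * q.imK - p.imK * q.imJ = 4 * r.imI ∧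
  p.re * q.imJ - p.imI * q.imK + p.imJ * q.re + p.imK * q.imI = 4 * r.imJ ∧
  p.re * q.imK + p.imI * q.imJ - p.imJ * q.imI + p.imK * q.re = 4 * r.imK

instance (p q r : ℍ[ℤ√5]) : Decidable (Rel4 p q r) := by unfold Rel4; infer_instance

lemma q_norm : ∀ σ, (qq (some σ)).re * (qq (some σ)).re + (qq (some σ)).imI * (qq (some σ)).imI +
    (qq (some σ)).imJ * (qq (some σ)).imJ + (qq (some σ)).imK * (qq (some σ)).imK = 16 := by
  decide +kernel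

lemma q_flat : ∀ σ, Rel4 (qq (idx (tr 0 σ) (tr 1 σ))) (qq (idx (tr 1 σ) (tr 2 σ)))
    (qq (idx (tr 0 σ) (tr 2 σ))) := by
  decide +kernel

noncomputable def toR : ℤ√5 →+* ℝ := Zsqrtd.toReal (by norm_num)

noncomputable def rq (p : ℍ[ℤ√5]) : ℍ := ⟨toR p.re / 4, toR p.imI / 4, toR p.imJ / 4, toR p.imK / 4⟩

lemma rq_mul {p q r : ℍ[ℤ√5]} (h : Rel4 p q r) : rq p * rq q = rq r := by
  obtain ⟨h1, h2, h3, h4⟩ := h
  have e1 := congrArg toR h1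
  have e2 := congrArg toR h2
  have e3 := congrArg toR h3
  have e4 := congrArg toR h4
  simp only [map_add, map_sub, map_mul, map_ofNat] at e1 e2 e3 e4
  ext
  · rw [Quaternion.re_mul]; simp only [rq]; linarith
  · rw [Quaternion.imI_mul]; simp only [rq]; linarith
  · rw [Quaternion.imJ_mul]; simp only [rq]; linarith
  · rw [Quaternion.imK_mul]; simp only [rq]; linarith

noncomputable def rho (σ : Fin 60) : S3 := ⟨rq (qq (some σ)), by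
  have e := congrArg toR (q_norm σ)
  simp only [map_add, map_mul, map_ofNat] at e
  have h : Quaternion.normSq (rq (qq (some σ))) = 1 := by
    rw [Quaternion.normSq_def']
    simp only [rq]
    linarith
  rw [mem_sphere_zero_iff_norm, ← sq_eq_sq₀ (norm_nonneg _) zero_le_one, sq,
    ← Quaternion.normSq_eq_norm_mul_self, h, one_pow]⟩

lemma coe_elim (o : Option (Fin 60)) : ((o.elim 1 rho : S3) : ℍ) = rq (qq o) := by
  cases o with
  | none =>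
    change (1 : ℍ) = rq (mkq [4, 0, 0, 0, 0, 0, 0, 0])
    ext <;> simp [rq, mkq, toR]
  | some σ => rfl

end Ex

open Ex in
theorem exists_cplx : Nonempty (Cplx (Fin 21) (Fin 60)) :=
  ⟨{ G := gr
     u := tr 0
     v := tr 1
     w := tr 2
     uv := by decide +kernel
     vw := by decide +kernel
     auv := by decide +kernel
     avw := by decide +kernel
     auw := by decide +kernel
     tri := by
       have : ∀ a b, a < b ∧ tb a b ≠ 0 → ∀ c, b < c ∧ tb b c ≠ 0 ∧ tb a c ≠ 0 →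
           ∃ σ, (tr 0 σ, tr 1 σ, tr 2 σ) = (a, b, c) := by decide +kernel
       intro a b c h1 h2 h3 h4 h5
       simpa using this a b ⟨h1, h3⟩ c ⟨h2, h4, h5⟩
     inj := by decide +kernel
     root := 0
     par := fun a => parL.getD a.val 0
     par_lt := by decide +kernel
     par_adj := by decide +kernel
     nt := fun σ => ((ntL.getD σ.val []).getD 0 0, (ntL.getD σ.val []).getD 1 0)
     nt_adj := by decide +kernel
     idx := idx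
     idx_none := by decide +kernel
     idx_some := by
       have : ∀ a b, ∀ σ ∈ idx a b,
           (((ntL.getD σ.val []).getD 0 0, (ntL.getD σ.val []).getD 1 0) : Fin 21 × Fin 21) =
             (a, b) := by decide +kernel
       exact fun a b σ h => this a b σ h
     N := fun τ σ => dig (nL.getD τ.val 0 / 3 ^ σ.val % 3)
     BN := by decide +kernel
     ρ := rho
     flat := fun σ => Subtype.ext (by
       rw [Metric.unitSphere.coe_mul, coe_elim, coe_elim, coe_elim]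
       exact rq_mul (q_flat σ))
     ne := by
       obtain ⟨σ, h⟩ : ∃ σ, (qq (some σ)).imI = 2 := by decide +kernel
       refine ⟨σ, fun e => ?_⟩
       have := congrArg (fun z : S3 => (z : ℍ).imI) e
       simp [rho, rq, h, map_ofNat] at this }⟩

end Vale.Agent.P173
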